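import Vale.Agent.P267.H667.T2sD

/-!
# P267 / XA-SMOOTH: `T2sLeaf` from `T2Leaf` (helper667)
-/

set_option linter.unusedSectionVars false
set_option linter.unusedVariables false

open Filter Topology Set Metric
open scoped ContDiff Manifold ComplexConjugate Matrix ComplexOrder

noncomputable section

namespace Vale.Agent.P267.H667

open FL XT H181

variable {M : Type} [TopologicalSpace M] [T2Space M] [ChartedSpace C2 M] [IsManifold 𝓘(ℂ, C2) ω M]

/-- `T2` of the trivial bundle in scalar form -/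
theorem scalar_T2 (D : XTData M) {w : ℤ → ℝ} {C₂ : ℝ}
    (h2 : D.T2 (LB.triv () : LB M Unit) (fun _ _ => 0) w C₂) {r : M → ℂ}
    (hr : Reg2 ∞ 0 r) {B : ℝ} (hB0 : 0 ≤ B) (hB : ∀ j, D.p2 0 r j ≤ B * w j) :
    ∃ b : M → Fin 2 → ℂ, Reg1 ∞ 0 b ∧ (∀ x, dbar1 0 b x = r x) ∧
      ∀ j, D.p1 0 b j ≤ C₂ * B * w j := by
  have hnee : ‖(EuclideanSpace.single () (1 : ℂ) : EuclideanSpace ℂ Unit)‖ = 1 := by simp
  have hr' : Reg2 ∞ 0 fun x => (r x) • (EuclideanSpace.single () (1 : ℂ) : EuclideanSpace ℂ Unit) :=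
    reg2_iff_at.2 fun x => ((hr.at x).clm
      ((ContinuousLinearMap.id ℂ ℂ).smulRight (EuclideanSpace.single () (1 : ℂ))))
  have hsec : (LB.triv () : LB M Unit).Sec fun x => (r x) • EuclideanSpace.single () (1 : ℂ) := by
    intro x
    rw [LB.act_smul]
    exact congrArg (fun w => r x • w) (H646.act_single_single ())
  have hp : ∀ j, D.p2 0 (fun x => (r x) •
      (EuclideanSpace.single () (1 : ℂ) : EuclideanSpace ℂ Unit)) j ≤ B * w j := by
    intro j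
    refine le_trans (le_of_eq ?_) (hB j)
    rw [XTData.p2, XTData.p2]
    congr 1
    funext x
    rw [n2, n2, norm_smul, hnee, mul_one]
  obtain ⟨v, hv, hvs, hdv, hpv⟩ := h2 _ hr' hsec B hB0 hp
  have hreg : Reg1 ∞ 0 fun x i => v x i () := reg1_iff_at.2 fun x => (hv.at x).clm (LB.ev ())
  refine ⟨fun x i => v x i (), hreg, fun x => ?_, fun j => ?_⟩
  · have h1 : dbar1 0 (fun x i => v x i ()) x = LB.ev () (dbar1 0 v x) :=
      dbar1_clm (LB.ev ()) ((hv.at x).of_le (by simp))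
    have h3 := hdv x
    simp only [LB.db1, zero_smul, sub_zero, add_zero] at h3
    have h4 : (LB.act (Matrix.single () () (1 : ℂ)) (dbar1 0 v x)) () = (dbar1 0 v x) () :=
      H646.act_single_apply () _
    have h5 : (LB.act (Matrix.single () () (1 : ℂ)) (dbar1 0 v x)) () =
        ((r x) • (EuclideanSpace.single () (1 : ℂ) : EuclideanSpace ℂ Unit)) () := by rw [← h3]; rfl
    rw [h1, LB.ev_apply, ← h4, h5]
    simp
  · refine le_trans ?_ (hpv j)
    refine D.prof_le (D.prof_nonneg (n1_nonneg D.herm 0 v) j) fun x hx => ?_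
    exact (H646.n1_ev_le D.herm 0 v () x).trans (D.le_prof (continuous_n1 D.herm hv) hx)

theorem floor_bounds {D : XTData M} {x : M} {j : ℤ} (hx : x ∈ D.slab j) {k : ℤ}
    (hk : k ∈ ks D x) : k ≤ j + 4 ∧ j ≤ k + 4 := by
  rw [ks, Finset.mem_Icc] at hk
  have h1 : j ≤ ⌊D.f x⌋ := Int.le_floor.2 hx.1
  have h2 : ⌈D.f x⌉ ≤ j + 1 := Int.ceil_le.2 (by push_cast; exact hx.2)
  constructor <;> omega

/-- **the gauge transformation** -/
theorem exists_gauge (D : XTData M) : ∃ C, 0 ≤ C ∧ ∀ (Λ : ℝ) (w : ℤ → ℝ), IsWt Λ w →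
    ∀ (r : M → ℂ) (v : M → Fin 2 → ℂ) (E : ℝ), 0 ≤ E → Reg1 ∞ 0 v → (∀ x, dbar1 0 v x = r x) →
    (∀ j, D.p1 0 v j ≤ E * w j) →
    ∃ v' : M → Fin 2 → ℂ, Reg1 ∞ 0 v' ∧ (∀ x, dbar1 0 v' x = r x) ∧
      (∀ j, D.p1 0 v' j ≤ C * Real.exp (Λ * 6) * E * w j) ∧
      ∀ j : ℤ, (∀ x, |D.f x - j| ≤ (7 : ℕ) → r x = 0) → ∀ x ∈ D.slab j,
        ‖trh D.h (del1 v') x‖ ≤ C * Real.exp (Λ * 6) * E * w j := by
  obtain ⟨𝒰, -⟩ := exists_pcov D (G := fun _ _ => True) fun x => ⟨1, one_pos, fun _ _ _ => trivial⟩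
  obtain ⟨C₀, hC₀, hpot⟩ := exists_pot 𝒰
  obtain ⟨C₁, hC₁, hrc⟩ := exists_rc_bound 𝒰
  obtain ⟨C₂, hC₂, hcau⟩ := exists_cauchy_pairs 𝒰
  refine ⟨1 + 𝒰.N * (8 * (C₀ * C₁ + 1)) + 𝒰.N * (8 * (C₂ * (2 * C₀) * C₁ + 2 * C₀ * C₁)),
    by positivity, ?_⟩
  intro Λ w hw r v E hE hv hdv hvb
  have hΛ := wt_nonneg hw
  -- pointwise bound of `v`
  have hvpt : ∀ x, n1 D.h 0 v x ≤ E * w ⌊D.f x⌋ := fun x =>
    (D.le_prof (continuous_n1 D.herm hv) (D.mem_slab_floor x)).trans (hvb _)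
  set W : ℤ → ℝ := fun k => C₀ * (Real.exp (Λ * 2) * E * w k) with hW
  have hW0 : ∀ k, 0 ≤ W k := fun k => by
    have := (hw.pos k).le
    positivity
  set good : Fin 𝒰.N → ℤ → Prop := fun i k => ∀ y ∈ 𝒰.B i 1, r (D.sh k y) = 0 with hgood
  have hex : ∀ i k, ∃ φ : M → ℂ, good i k → (∀ y ∈ 𝒰.B i (1 / 2), At0 ∞ 0 φ y) ∧
      (∀ y ∈ 𝒰.B i (1 / 2), dbar0 0 φ y = v (D.sh k y)) ∧
      ∀ y ∈ 𝒰.B i (1 / 2), ‖φ y‖ ≤ W k := by
    intro i k
    by_cases hg : good i k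
    · have hwk := (hw.pos k).le
      obtain ⟨φ, h1, h2, h3⟩ := hpot i (fun y => v (D.sh k y)) (Real.exp (Λ * 2) * E * w k)
        (by positivity)
        (fun y _ => ((D.chartMap_sh k).reg1_comp hv).at y)
        (fun y hy => by rw [(D.chartMap_sh k).dbar1_comp, hdv, hg y hy])
        (fun y hy => by
          rw [D.n1_comp_sh]
          refine (hvpt _).trans ?_
          have hf := 𝒰.f_bd' le_rfl (𝒰.B_sub i 1 hy)
          rw [abs_le] at hf
          have h4 : ⌊D.f (D.sh k y)⌋ ≤ k + (2 : ℕ) := by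
            have : D.f (D.sh k y) < ((k + (2 : ℕ) + 1 : ℤ) : ℝ) := by
              rw [D.f_sh]; push_cast; linarith [hf.2]
            have := Int.floor_lt.2 this
            omega
          have h5 : k ≤ ⌊D.f (D.sh k y)⌋ + (2 : ℕ) := by
            have : ((k - (2 : ℕ) : ℤ) : ℝ) ≤ D.f (D.sh k y) := by
              rw [D.f_sh]; push_cast; linarith [hf.1]
            have := Int.le_floor.2 this
            omega
          have h6 := wt_le_of_abs hw h4 h5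
          calc E * w ⌊D.f (D.sh k y)⌋ ≤ E * (Real.exp (Λ * (2 : ℕ)) * w k) :=
              mul_le_mul_of_nonneg_left h6 hE
            _ = Real.exp (Λ * 2) * E * w k := by push_cast; ring)
      exact ⟨φ, fun _ => ⟨h1, h2, fun y hy => (h3 y hy)⟩⟩
    · exact ⟨fun _ => 0, fun h => absurd h hg⟩
  choose φ hφ using hex
  have hP : Pot 𝒰 v good φ W :=
    ⟨fun i k hg => (hφ i k hg).1, fun i k hg => (hφ i k hg).2.1, fun i k hg => (hφ i k hg).2.2⟩
  have hu : Reg0 ∞ 0 (uu 𝒰 good φ) := reg0_uu hP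
  have hdu : Reg1 ∞ 0 (dbar0 0 (uu 𝒰 good φ)) := hu.dbar infty_add_one_le
  have hv' : Reg1 ∞ 0 (fun y p => v y p - dbar0 0 (uu 𝒰 good φ) y p) :=
    reg1_iff_at.2 fun x => (hv.at x).sub (hdu.at x)
  have e6 : Real.exp (Λ * 2) * Real.exp (Λ * 4) = Real.exp (Λ * 6) := by
    rw [← Real.exp_add]; congr 1; ring
  have hWj : ∀ {j : ℤ} {x : M}, x ∈ D.slab j → ∀ k ∈ ks D x,
      W k ≤ C₀ * (Real.exp (Λ * 6) * E * w j) := by
    intro j x hx k hk
    obtain ⟨h1, h2⟩ := floor_bounds hx hk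
    have h3 : w k ≤ Real.exp (Λ * (4 : ℕ)) * w j :=
      wt_le_of_abs hw (by push_cast; exact h1) (by push_cast; exact h2)
    have h4 : Real.exp (Λ * 2) * E * w k ≤ Real.exp (Λ * 6) * E * w j := by
      calc Real.exp (Λ * 2) * E * w k ≤ Real.exp (Λ * 2) * E * (Real.exp (Λ * (4 : ℕ)) * w j) :=
          mul_le_mul_of_nonneg_left h3 (by positivity)
        _ = (Real.exp (Λ * 2) * Real.exp (Λ * 4)) * E * w j := by push_cast; ring
        _ = _ := by rw [e6]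
    exact mul_le_mul_of_nonneg_left h4 hC₀
  have hvj : ∀ {j : ℤ} {x : M}, x ∈ D.slab j → n1 D.h 0 v x ≤ Real.exp (Λ * 6) * E * w j := by
    intro j x hx
    have h1 := (D.le_prof (continuous_n1 D.herm hv) hx).trans (hvb j)
    have h2 : 1 ≤ Real.exp (Λ * 6) := Real.one_le_exp (by positivity)
    have h3 := (hw.pos j).le
    calc n1 D.h 0 v x ≤ 1 * (E * w j) := by rw [one_mul]; exact h1
      _ ≤ Real.exp (Λ * 6) * (E * w j) := mul_le_mul_of_nonneg_right h2 (by positivity)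
      _ = _ := by ring
  refine ⟨fun y p => v y p - dbar0 0 (uu 𝒰 good φ) y p, hv', fun x => ?_, fun j => ?_,
    fun j hj x hx => ?_⟩
  · have h1 : dbar1 0 (fun y p => v y p - dbar0 0 (uu 𝒰 good φ) y p) x =
        dbar1 0 v x - dbar1 0 (dbar0 0 (uu 𝒰 good φ)) x :=
      dbar1_sub ((hv.at x).of_le (by simp)) ((hdu.at x).of_le (by simp))
    rw [h1, dbar1_dbar0 ((hu.at x).of_le (WithTop.coe_le_coe.2 le_top)), sub_zero, hdv]
  · have hwj := (hw.pos j).le
    set T : ℝ := Real.exp (Λ * 6) * E * w j with hT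
    have hT0 : 0 ≤ T := by positivity
    refine D.prof_le (by positivity) fun x hx => ?_
    have h1 : n1 D.h 0 (fun y p => v y p - dbar0 0 (uu 𝒰 good φ) y p) x ≤
        n1 D.h 0 v x + n1 D.h 0 (dbar0 0 (uu 𝒰 good φ)) x := by
      have e1 : n1 D.h 0 (fun y p => v y p - dbar0 0 (uu 𝒰 good φ) y p) x =
          n1 D.h 0 (fun y p => v y p + (fun y => (-1 : ℂ) • dbar0 0 (uu 𝒰 good φ) y) y p) x := by
        apply n1_congr_at
        funext p
        simp only [Pi.smul_apply, smul_eq_mul]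
        ring
      have e2 : n1 D.h 0 (fun y => (-1 : ℂ) • dbar0 0 (uu 𝒰 good φ) y) x =
          n1 D.h 0 (dbar0 0 (uu 𝒰 good φ)) x := by
        have := n1_smul (h := D.h) 0 (fun _ => (-1 : ℂ)) (dbar0 0 (uu 𝒰 good φ)) x
        rw [this]
        simp
      rw [e1]
      refine (n1_add_le D.herm 0 _ _ x).trans ?_
      rw [e2]
    have h2 := n1_dbar_uu_le hP hC₁ (fun i x => (hrc i x).1) hW0 (x := x) (A := C₀ * T)
      (fun k hk => hWj hx k hk) (by positivity)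
    have h3 := hvj hx
    have hN : (0 : ℝ) ≤ 𝒰.N := by positivity
    calc n1 D.h 0 (fun y p => v y p - dbar0 0 (uu 𝒰 good φ) y p) x
        ≤ T + 𝒰.N * (8 * (C₀ * T * C₁ + T)) := by
          refine h1.trans (add_le_add h3 (h2.trans ?_))
          gcongr
      _ = (1 + 𝒰.N * (8 * (C₀ * C₁ + 1))) * T := by ring
      _ ≤ (1 + 𝒰.N * (8 * (C₀ * C₁ + 1)) + 𝒰.N * (8 * (C₂ * (2 * C₀) * C₁ + 2 * C₀ * C₁))) * T := by
          refine mul_le_mul_of_nonneg_right ?_ hT0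
          have : (0 : ℝ) ≤ 𝒰.N * (8 * (C₂ * (2 * C₀) * C₁ + 2 * C₀ * C₁)) := by positivity
          linarith
      _ = _ := by rw [hT]; ring
  · have hwj := (hw.pos j).le
    set T : ℝ := Real.exp (Λ * 6) * E * w j with hT
    have hT0 : 0 ≤ T := by positivity
    -- all patches are good
    have hall : ∀ i, ∀ k ∈ ks D x, good i k := by
      intro i k hk y hy
      obtain ⟨h1, h2⟩ := floor_bounds hx hk
      have hk' := hk
      rw [ks, Finset.mem_Icc] at hk'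
      have h3 : j - 3 ≤ k := by
        have : j ≤ ⌊D.f x⌋ := Int.le_floor.2 hx.1
        omega
      apply hj
      have hf := 𝒰.f_bd' le_rfl (𝒰.B_sub i 1 hy)
      rw [abs_le] at hf ⊢
      rw [D.f_sh]
      have h4 : (k : ℝ) ≤ j + 4 := by exact_mod_cast h1
      have h5 : (j : ℝ) - 3 ≤ k := by exact_mod_cast h3
      push_cast
      constructor <;> linarith [hf.1, hf.2]
    obtain ⟨i₀, k₀, hk₀⟩ := 𝒰.cover x
    have hx₀ : D.sh (-k₀) x ∈ 𝒰.Bc i₀ (1 / 4) := by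
      refine image_mono ?_ hk₀
      refine ball_subset_closedBall.trans (closedBall_subset_closedBall ?_)
      have := 𝒰.R_pos i₀
      linarith
    have hk₀s : k₀ ∈ ks D x := 𝒰.mem_ks (by simp) (by norm_num) hx₀
    have hev := gauge_eq hP hall i₀ k₀
    have e1 : trh D.h (del1 (fun y p => v y p - dbar0 0 (uu 𝒰 good φ) y p)) x =
        -∑ i, ∑ k ∈ ks D x, trh D.h (del1 (term 𝒰 φ i₀ k₀ i k)) x := by
      have hat : ∀ i, ∀ k ∈ ks D x, At1 1 0 (term 𝒰 φ i₀ k₀ i k) x := fun i k hk =>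
        (at1_term hP (hall i₀ k₀ hk₀s) (hall i k hk) hx₀).of_le (by simp)
      have h1 : del1 (fun y p => v y p - dbar0 0 (uu 𝒰 good φ) y p) x =
          -∑ i, ∑ k ∈ ks D x, del1 (term 𝒰 φ i₀ k₀ i k) x := by
        rw [del1_congr hev]
        have h2 := del1_neg (fun y p => ∑ i, ∑ k ∈ ks D x, term 𝒰 φ i₀ k₀ i k y p) x
        rw [h2]
        congr 1
        have h3 := del1_sum (S := Finset.univ) (x := x)
          (t := fun i => fun y p => ∑ k ∈ ks D x, term 𝒰 φ i₀ k₀ i k y p) (fun i _ => by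
            have := At1.sum (n := 1) (κ := 0) (x := x) (S := ks D x)
              (s := fun k => term 𝒰 φ i₀ k₀ i k) (hat i)
            convert this using 2
            funext p
            rw [Finset.sum_apply])
        rw [h3]
        refine Finset.sum_congr rfl fun i _ => ?_
        exact del1_sum (hat i)
      rw [trh, h1, Matrix.mul_neg, Matrix.trace_neg, Finset.mul_sum, Matrix.trace_sum]
      congr 1
      refine Finset.sum_congr rfl fun i _ => ?_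
      rw [Finset.mul_sum, Matrix.trace_sum]
      rfl
    rw [e1, norm_neg]
    have h2 : ∀ i, ∀ k ∈ ks D x, ‖trh D.h (del1 (term 𝒰 φ i₀ k₀ i k)) x‖ ≤
        C₂ * (2 * (C₀ * T)) * C₁ + 2 * (C₀ * T) * C₁ := fun i k hk =>
      trh_term_le hP hC₁ hrc hC₂ hcau (hall i₀ k₀ hk₀s) (hall i k hk) hx₀ (by positivity)
        (hWj hx k hk) (hWj hx k₀ hk₀s)
    have h3 : ∀ i, ‖∑ k ∈ ks D x, trh D.h (del1 (term 𝒰 φ i₀ k₀ i k)) x‖ ≤
        8 * (C₂ * (2 * (C₀ * T)) * C₁ + 2 * (C₀ * T) * C₁) := by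
      intro i
      refine (norm_sum_le _ _).trans ?_
      refine (Finset.sum_le_card_nsmul _ _ _ (h2 i)).trans ?_
      rw [nsmul_eq_mul]
      refine mul_le_mul_of_nonneg_right ?_ (by positivity)
      exact_mod_cast card_ks_le x
    calc ‖∑ i, ∑ k ∈ ks D x, trh D.h (del1 (term 𝒰 φ i₀ k₀ i k)) x‖
        ≤ 𝒰.N * (8 * (C₂ * (2 * (C₀ * T)) * C₁ + 2 * (C₀ * T) * C₁)) := by
          refine (norm_sum_le _ _).trans ?_
          refine (Finset.sum_le_card_nsmul _ _ _ fun i _ => h3 i).trans ?_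
          rw [nsmul_eq_mul, Finset.card_univ, Fintype.card_fin]
      _ = (𝒰.N * (8 * (C₂ * (2 * C₀) * C₁ + 2 * C₀ * C₁))) * T := by ring
      _ ≤ (1 + 𝒰.N * (8 * (C₀ * C₁ + 1)) + 𝒰.N * (8 * (C₂ * (2 * C₀) * C₁ + 2 * C₀ * C₁))) * T := by
          refine mul_le_mul_of_nonneg_right ?_ hT0
          have : (0 : ℝ) ≤ 1 + 𝒰.N * (8 * (C₀ * C₁ + 1)) := by positivity
          linarith
      _ = _ := by rw [hT]; ring

/-- **`T2sLeaf` from `T2Leaf`** -/
theorem t2sLeaf (D : XTData M) (hT2 : D.T2Leaf) : D.T2sLeaf := by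
  intro Λ
  obtain ⟨m₁, C₂, hC₂, h2⟩ := hT2 Unit (LB.triv ()) () (fun _ _ => 0) 0 1 2 (fun _ => LB.triv ())
    (fun _ _ _ => 0) one_pos (XTData.endTriv_triv D () 0 1) (XTData.perSeq_triv D () 1) Λ
  obtain ⟨C, hC, hg⟩ := exists_gauge D
  refine ⟨7, C * Real.exp (Λ * 6) * C₂, by positivity, fun w hw r hr B hB hrB => ?_⟩
  obtain ⟨v, hv, hdv, hvb⟩ := scalar_T2 D (h2 w hw).1 hr hB hrB
  obtain ⟨v', h1, h3, h4, h5⟩ := hg Λ w hw r v (C₂ * B) (by positivity) hv hdv hvb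
  refine ⟨v', h1, h3, fun j => (h4 j).trans (le_of_eq (by ring)), fun j hj x hx =>
    (h5 j hj x hx).trans (le_of_eq (by ring))⟩

end Vale.Agent.P267.H667
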