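import Vale.Agent.P267.H181.Cov
import Vale.Agent.P267.H378.Met2
import Vale.Agent.P267.H661.Prim
import Vale.Agent.P267.H877.Norms

/-!
# P267 / XA-SMOOTH: the C^1 clause of T2s from T2 (helper667), part 1

Product rule for `del1`, Cauchy-Schwarz for the trace, Cauchy estimates for holomorphic functions on
a complex surface with respect to a Hermitian metric.
-/

set_option linter.unusedSectionVars false
set_option linter.unusedVariables false

open Filter Topology Set Metric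
open scoped ContDiff Manifold ComplexConjugate Matrix ComplexOrder

noncomputable section

namespace Vale.Agent.P267.H667

open FL XT

section alg

variable {X : Type*} [TopologicalSpace X] [ChartedSpace C2 X] [IsManifold 𝓘(ℂ, C2) ω X]

/-- product rule for `del1` -/
theorem del1_mul {G : X → ℂ} {b : X → Fin 2 → ℂ} {x : X} (hG : At0 1 0 G x) (hb : At1 1 0 b x)
    (i j : Fin 2) :
    del1 (fun y k => G y * b y k) x i j = del0 G x i * b x j + G x * del1 b x i j := by
  have h1 : (fun z => loc1 0 (chartAt C2 x) (fun y k => G y * b y k) z j) =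
      fun z => G ((chartAt C2 x).symm z) * loc1 0 (chartAt C2 x) b z j := by
    funext z
    simp only [loc1, zpow_zero, Finset.mul_sum, smul_eq_mul]
    refine Finset.sum_congr rfl fun p _ => ?_
    ring
  have h2 : DifferentiableAt ℝ (fun z => G ((chartAt C2 x).symm z)) (chartAt C2 x x) := by
    have := hG.diff le_rfl
    rwa [LB.loc0_zero] at this
  have h3 : DifferentiableAt ℝ (fun z => loc1 0 (chartAt C2 x) b z j) (chartAt C2 x x) :=
    hb.diff' le_rfl j
  have h4 : loc1 0 (chartAt C2 x) b (chartAt C2 x x) j = b x j := by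
    rw [loc1_chartAt]
  unfold del1 del0
  simp only [Matrix.of_apply]
  rw [h1, dz_mul h2 h3, h4, (chartAt C2 x).left_inv (mem_chart_source C2 x)]
  ring

end alg


section trace

variable {M : Type} [TopologicalSpace M] [ChartedSpace C2 M]
variable {h : M → Matrix (Fin 2) (Fin 2) ℂ}

/-- Cauchy-Schwarz for the trace of `conj c ⊗ b` -/
theorem norm_trh_outer_le (hh : IsHerm h) (c b : M → Fin 2 → ℂ) (x : M) :
    ‖trh h (fun y => Matrix.of fun i j => conj (c y i) * b y j) x‖ ≤ n1 h 0 c x * n1 h 0 b x := by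
  obtain ⟨B, hB, -⟩ := exists_coframe (hh.posDef x)
  set γ : Fin 2 → ℂ := fun k => ∑ p, conj (B k p) • c x p with hγ
  set β : Fin 2 → ℂ := fun k => ∑ p, conj (B k p) • b x p with hβ
  have h1 : trh h (fun y => Matrix.of fun i j => conj (c y i) * b y j) x =
      β 0 * conj (γ 0) + β 1 * conj (γ 1) := by
    rw [trh, hB, Matrix.trace_fin_two]
    simp only [hγ, hβ, Matrix.mul_apply, Matrix.conjTranspose_apply, Fin.sum_univ_two, Matrix.of_apply,
      smul_eq_mul, map_add, map_mul, Complex.conj_conj, RCLike.star_def]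
    ring
  have h2 : n1 h 0 c x = Real.sqrt (‖γ 0‖ ^ 2 + ‖γ 1‖ ^ 2) := by
    rw [n1_coframe 0 c x hB]
    simp [hγ]
  have h3 : n1 h 0 b x = Real.sqrt (‖β 0‖ ^ 2 + ‖β 1‖ ^ 2) := by
    rw [n1_coframe 0 b x hB]
    simp [hβ]
  rw [h1, h2, h3, ← Real.sqrt_mul (by positivity)]
  apply Real.le_sqrt_of_sq_le
  have h4 : ‖β 0 * conj (γ 0) + β 1 * conj (γ 1)‖ ≤ ‖β 0‖ * ‖γ 0‖ + ‖β 1‖ * ‖γ 1‖ := by
    refine (norm_add_le _ _).trans ?_
    rw [norm_mul, norm_mul, RCLike.norm_conj, RCLike.norm_conj]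
  have h5 := norm_nonneg (β 0 * conj (γ 0) + β 1 * conj (γ 1))
  nlinarith [sq_nonneg (‖β 0‖ * ‖γ 1‖ - ‖β 1‖ * ‖γ 0‖), norm_nonneg (β 0), norm_nonneg (β 1),
    norm_nonneg (γ 0), norm_nonneg (γ 1)]

theorem trh_add (g g' : M → Matrix (Fin 2) (Fin 2) ℂ) (x : M) :
    trh h (fun y => g y + g' y) x = trh h g x + trh h g' x := by
  simp [trh, Matrix.mul_add, Matrix.trace_add]

theorem trh_smul (c : M → ℂ) (g : M → Matrix (Fin 2) (Fin 2) ℂ) (x : M) :
    trh h (fun y => c y • g y) x = c x * trh h g x := by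
  simp [trh, Matrix.trace_smul]

theorem trh_congr_at {g g' : M → Matrix (Fin 2) (Fin 2) ℂ} {x : M} (hg : g x = g' x) :
    trh h g x = trh h g' x := by rw [trh, trh, hg]

end trace

/-! ### Cauchy estimates -/

theorem norm_dz_le {F : C2 → ℂ} {z : C2} {δ A : ℝ} (hδ : 0 < δ)
    (hF : ∀ w ∈ ball z δ, DifferentiableAt ℂ F w) (hA : ∀ w ∈ ball z δ, ‖F w‖ ≤ A) (j : Fin 2) :
    ‖dz j F z‖ ≤ 2 * A / δ := by
  set g : ℂ → ℂ := fun t => F (z + t • Pi.single j (1 : ℂ)) with hg
  have hmem : ∀ t : ℂ, ‖t‖ < δ → z + t • (Pi.single j (1 : ℂ) : C2) ∈ ball z δ := by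
    intro t ht
    rw [mem_ball, dist_eq_norm, add_sub_cancel_left, norm_smul]
    have : ‖(Pi.single j (1 : ℂ) : C2)‖ = 1 := by rw [Pi.norm_single, norm_one]
    rw [this, mul_one]
    exact ht
  have hl : ∀ t : ℂ, HasDerivAt (fun t : ℂ => z + t • (Pi.single j (1 : ℂ) : C2))
      (Pi.single j (1 : ℂ) : C2) t := by
    intro t
    have := ((hasDerivAt_id t).smul_const (Pi.single j (1 : ℂ) : C2)).const_add z
    simpa using this
  have hgd : ∀ t : ℂ, ‖t‖ < δ → HasDerivAt g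
      (fderiv ℂ F (z + t • (Pi.single j (1 : ℂ) : C2)) (Pi.single j 1)) t := by
    intro t ht
    exact (hF _ (hmem t ht)).hasFDerivAt.comp_hasDerivAt t (hl t)
  have h1 : dz j F z = deriv g 0 := by
    have h2 := (hgd 0 (by simpa using hδ)).deriv
    rw [h2, dz_of_hol (hF z (mem_ball_self hδ))]
    simp
  rw [h1]
  have hd : DiffContOnCl ℂ g (ball 0 (δ / 2)) := by
    refine DifferentiableOn.diffContOnCl fun t ht => ?_
    have h3 : ‖t‖ < δ := by
      have := closure_ball_subset_closedBall ht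
      rw [mem_closedBall_zero_iff] at this
      linarith
    exact (hgd t h3).differentiableAt.differentiableWithinAt
  have h4 := Complex.norm_deriv_le_of_forall_mem_sphere_norm_le (half_pos hδ) hd (C := A)
    (fun t ht => by
      rw [mem_sphere_zero_iff_norm] at ht
      exact hA _ (hmem t (by rw [ht]; linarith)))
  refine h4.trans (le_of_eq ?_)
  field_simp

section cauchy

variable {M : Type} [TopologicalSpace M] [ChartedSpace C2 M] [IsManifold 𝓘(ℂ, C2) ω M]
variable {h : M → Matrix (Fin 2) (Fin 2) ℂ}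

/-- a smooth function with `∂̄G = 0` is complex differentiable in the charts -/
theorem differentiableAt_loc0 {W : Set M} (hW : IsOpen W) {G : M → ℂ} (hG : ∀ y ∈ W, At0 1 0 G y)
    (hd : ∀ y ∈ W, dbar0 0 G y = 0) {e : Ch M} (he : e ∈ atlas C2 M) {z : C2} (hz : z ∈ e.target)
    (hzW : e.symm z ∈ W) : DifferentiableAt ℂ (loc0 0 e G) z := by
  have h1 : ContDiffAt ℝ 1 (loc0 0 e G) z := by
    have := (hG _ hzW).chart he (e.map_target hz)
    rwa [e.right_inv hz] at this
  have h2 : DifferentiableAt ℝ (loc0 0 e G) z := h1.differentiableAt (by simp)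
  rw [differentiableAt_complex_iff h2]
  intro j
  rw [← loc1_dbar0 he hz h2 j]
  simp [loc1, hd _ hzW]

/-- Cauchy estimate near a point -/
theorem cauchy_local (hh : IsHerm h) {W : Set M} (hW : IsOpen W) {x₀ : M} (hx₀ : x₀ ∈ W) :
    ∃ N ∈ 𝓝 x₀, ∃ C, 0 ≤ C ∧ ∀ (G : M → ℂ) (A : ℝ), (∀ y ∈ W, At0 1 0 G y) →
      (∀ y ∈ W, dbar0 0 G y = 0) → (∀ y ∈ W, ‖G y‖ ≤ A) → ∀ x ∈ N,
        n1 h 0 (fun y i => conj (del0 G y i)) x ≤ C * A := by
  set e := chartAt C2 x₀ with he_def
  have he : e ∈ atlas C2 M := chart_mem_atlas C2 x₀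
  have hx : x₀ ∈ e.source := mem_chart_source C2 x₀
  obtain ⟨R, hR, hRt, hRW⟩ := H181.exists_ball (e := e) hx (p := fun z => e.symm z ∈ W)
    ((tendsto_symm_nhds hx).eventually (hW.mem_nhds hx₀))
  have hK : closedBall (e x₀) (R / 2) ⊆ e.target :=
    (closedBall_subset_ball (by linarith)).trans hRt
  obtain ⟨C1, hC1, hcmp⟩ := H378.n1_compare hh he hK (isCompact_closedBall _ _) 0
  refine ⟨e.source ∩ e ⁻¹' ball (e x₀) (R / 2), ?_, C1 * (2 * (2 / R)), by positivity, ?_⟩
  · exact e.continuousAt hx |>.preimage_mem_nhds (ball_mem_nhds _ (by linarith)) |>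
      fun h => inter_mem (e.open_source.mem_nhds hx) h
  intro G A hG hd hA x hxN
  have hzK : e x ∈ closedBall (e x₀) (R / 2) := ball_subset_closedBall hxN.2
  have hxs : x ∈ e.source := hxN.1
  have hsub : ball (e x) (R / 2) ⊆ ball (e x₀) R := by
    intro w hw
    rw [mem_ball] at hw ⊢
    have := mem_ball.1 hxN.2
    calc dist w (e x₀) ≤ dist w (e x) + dist (e x) (e x₀) := dist_triangle _ _ _
      _ < R := by linarith
  have hFd : ∀ w ∈ ball (e x) (R / 2), DifferentiableAt ℂ (loc0 0 e G) w := fun w hw =>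
    differentiableAt_loc0 hW hG hd he (hRt (hsub hw)) (hRW w (hsub hw))
  have hFA : ∀ w ∈ ball (e x) (R / 2), ‖loc0 0 e G w‖ ≤ A := fun w hw => by
    rw [LB.loc0_zero]
    exact hA _ (hRW w (hsub hw))
  have hdz : ∀ j, ‖dz j (loc0 0 e G) (e x)‖ ≤ 2 * A / (R / 2) := fun j =>
    norm_dz_le (by linarith) hFd hFA j
  have hA0 : 0 ≤ A := (norm_nonneg _).trans (hFA _ (mem_ball_self (by linarith)))
  -- the form `conj ∂G = ∂̄ conj G`
  have hxW : x ∈ W := by
    have := hRW (e x) (hsub (mem_ball_self (by linarith)))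
    rwa [e.left_inv hxs] at this
  have hGc : At0 1 0 (fun y => conj (G y)) x := by
    have h1 := hG x hxW
    rw [At0, LB.loc0_zero] at h1 ⊢
    exact Complex.conjCLE.contDiff.contDiffAt.comp _ h1
  have hform : (fun i => conj (del0 G x i)) = dbar0 0 (fun y => conj (G y)) x := by
    funext i
    have h1 := (hG x hxW).diff le_rfl
    have h2 := dzb_conj h1 i
    rw [dbar0, LB.loc0_zero]
    rw [LB.loc0_zero] at h2
    exact h2.symm
  have hn : n1 h 0 (fun y i => conj (del0 G y i)) x = n1 h 0 (dbar0 0 (fun y => conj (G y))) x := by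
    simp only [n1, nsq1]
    rw [← hform]
  rw [hn]
  have h3 := (hcmp (e x) hzK (dbar0 0 (fun y => conj (G y)))).2
  rw [e.left_inv hxs] at h3
  refine h3.trans ?_
  rw [mul_assoc]
  refine mul_le_mul_of_nonneg_left ?_ hC1.le
  refine (pi_norm_le_iff_of_nonneg (by positivity)).2 fun i => ?_
  have hd1 : DifferentiableAt ℝ (loc0 0 e fun y => conj (G y)) (e x) :=
    (hGc.chart he hxs).differentiableAt (by simp)
  rw [loc1_dbar0 he (e.map_source hxs) hd1 i]
  have hd2 : DifferentiableAt ℝ (loc0 0 e G) (e x) :=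
    ((hG x hxW).chart he hxs).differentiableAt (by simp)
  have h5 : loc0 0 e (fun y => conj (G y)) = fun z => conj (loc0 0 e G z) := by
    rw [LB.loc0_zero, LB.loc0_zero]; rfl
  rw [h5, dzb_conj hd2, RCLike.norm_conj]
  refine (hdz i).trans (le_of_eq ?_)
  field_simp

/-- Cauchy estimate on a compact set -/
theorem cauchy_compact (hh : IsHerm h) {W K : Set M} (hW : IsOpen W) (hK : IsCompact K)
    (hKW : K ⊆ W) :
    ∃ C, 0 ≤ C ∧ ∀ (G : M → ℂ) (A : ℝ), 0 ≤ A → (∀ y ∈ W, At0 1 0 G y) →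
      (∀ y ∈ W, dbar0 0 G y = 0) → (∀ y ∈ W, ‖G y‖ ≤ A) → ∀ x ∈ K,
        n1 h 0 (fun y i => conj (del0 G y i)) x ≤ C * A := by
  have hloc : ∀ x ∈ K, ∃ N ∈ 𝓝 x, ∃ C, 0 ≤ C ∧ ∀ (G : M → ℂ) (A : ℝ),
      (∀ y ∈ W, At0 1 0 G y) → (∀ y ∈ W, dbar0 0 G y = 0) → (∀ y ∈ W, ‖G y‖ ≤ A) → ∀ x ∈ N,
        n1 h 0 (fun y i => conj (del0 G y i)) x ≤ C * A := fun x hx =>
    cauchy_local hh hW (hKW hx)
  choose! N hN C hC hCN using hloc
  obtain ⟨t, htK, ht⟩ := hK.elim_nhds_subcover N hN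
  refine ⟨∑ x ∈ t, C x, Finset.sum_nonneg fun x hx => hC x (htK x hx), ?_⟩
  intro G A hA0 hG hd hA x hx
  obtain ⟨y, hy, hxy⟩ := mem_iUnion₂.1 (ht hx)
  refine (hCN y (htK y hy) G A hG hd hA x hxy).trans ?_
  exact mul_le_mul_of_nonneg_right
    (Finset.single_le_sum (f := C) (fun x hx => hC x (htK x hx)) hy) hA0

end cauchy

end Vale.Agent.P267.H667
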