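import Vale.Agent.P267.H667.T2sA
import Vale.Agent.P267.H646.Ex

/-!
# P267 / XA-SMOOTH: the C^1 clause of T2s from T2 (helper667), part 2

Potentials on the patches of a periodic cover and the gauge transformation.
-/

set_option linter.unusedSectionVars false
set_option linter.unusedVariables false

open Filter Topology Set Metric
open scoped ContDiff Manifold ComplexConjugate Matrix ComplexOrder

noncomputable section

namespace Vale.Agent.P267.H667

open FL XT H181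

/-! ### locality and sums for `del1` -/

section del

variable {X : Type*} [TopologicalSpace X] [ChartedSpace C2 X]

theorem del1_congr {a b : X → Fin 2 → ℂ} {x : X} (h : a =ᶠ[𝓝 x] b) : del1 a x = del1 b x := by
  ext i j
  have h1 := loc1_congr (κ := 0) (mem_chart_source C2 x) h
  unfold del1
  simp only [Matrix.of_apply]
  refine dz_congr ?_ i
  exact h1.mono fun z hz => congrFun hz j

theorem del1_add {a b : X → Fin 2 → ℂ} {x : X} (ha : At1 1 0 a x) (hb : At1 1 0 b x) :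
    del1 (fun y i => a y i + b y i) x = del1 a x + del1 b x := by
  ext i j
  have h1 : (fun z => loc1 0 (chartAt C2 x) (fun y i => a y i + b y i) z j) =
      fun z => loc1 0 (chartAt C2 x) a z j + loc1 0 (chartAt C2 x) b z j := by
    funext z
    simp only [loc1, zpow_zero, one_smul, smul_add, Finset.sum_add_distrib]
  unfold del1
  simp only [Matrix.of_apply, Matrix.add_apply]
  rw [h1, dz_add (ha.diff' le_rfl j) (hb.diff' le_rfl j)]

theorem del1_zero' {x : X} : del1 (fun (_ : X) (_ : Fin 2) => (0 : ℂ)) x = 0 := by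
  ext i j
  have h1 : (fun z => loc1 0 (chartAt C2 x) (fun (_ : X) (_ : Fin 2) => (0 : ℂ)) z j) =
      fun _ => 0 := by
    funext z
    simp [loc1]
  unfold del1
  simp only [Matrix.of_apply]
  rw [h1, dz_const]
  rfl

theorem del1_sum {ι : Type*} {S : Finset ι} {t : ι → X → Fin 2 → ℂ} {x : X}
    (h : ∀ k ∈ S, At1 1 0 (t k) x) :
    del1 (fun y i => ∑ k ∈ S, t k y i) x = ∑ k ∈ S, del1 (t k) x := by
  classical
  induction S using Finset.induction_on with
  | empty =>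
    simp only [Finset.sum_empty]
    exact del1_zero'
  | insert k S hk ih =>
    rw [Finset.sum_insert hk, ← ih fun l hl => h l (Finset.mem_insert_of_mem hl)]
    have h1 : (fun (y : X) (i : Fin 2) => ∑ k ∈ insert k S, t k y i) =
        fun y i => t k y i + (fun y i => ∑ k ∈ S, t k y i) y i := by
      funext y i
      rw [Finset.sum_insert hk]
    rw [h1]
    refine del1_add (h k (Finset.mem_insert_self _ _)) ?_
    have := At1.sum (n := 1) (κ := 0) (x := x) (S := S) (s := t)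
      fun l hl => h l (Finset.mem_insert_of_mem hl)
    convert this using 2
    funext i
    rw [Finset.sum_apply]

theorem trh_sum {h : X → Matrix (Fin 2) (Fin 2) ℂ} {ι : Type*} (S : Finset ι)
    (g : ι → X → Matrix (Fin 2) (Fin 2) ℂ) (x : X) :
    trh h (fun y => ∑ k ∈ S, g k y) x = ∑ k ∈ S, trh h (g k) x := by
  simp only [trh, Finset.mul_sum, Matrix.trace_sum]

end del

section comp

variable {Y X : Type*} [TopologicalSpace Y] [ChartedSpace C2 Y] [TopologicalSpace X]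
  [ChartedSpace C2 X] {V : Type*} [NormedAddCommGroup V] [NormedSpace ℂ V]

theorem at0_comp {g : Y → X} (hg : ChartMap g) {n : WithTop ℕ∞} {κ : ℤ} {s : X → V} {y : Y}
    (h : At0 n κ s (g y)) : At0 n κ (fun z => s (g z)) y := by
  rw [At0] at h ⊢
  rw [hg.apply_eq] at h
  exact h.congr_of_eventuallyEq (hg.loc0_germ κ s y).symm

theorem at1_comp {g : Y → X} (hg : ChartMap g) {n : WithTop ℕ∞} {κ : ℤ} {s : X → Fin 2 → V} {y : Y}
    (h : At1 n κ s (g y)) : At1 n κ (fun z => s (g z)) y := by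
  rw [At1] at h ⊢
  rw [hg.apply_eq] at h
  exact h.congr_of_eventuallyEq (hg.loc1_germ κ s y).symm

end comp

/-! ### weights -/

theorem wt_nonneg {Λ : ℝ} {w : ℤ → ℝ} (hw : IsWt Λ w) : 0 ≤ Λ := by
  by_contra hc
  push Not at hc
  have h1 := hw.up 0
  have h2 := hw.down 0
  have h3 := hw.pos 0
  have h4 : Real.exp Λ < 1 := Real.exp_lt_one_iff.2 hc
  have h5 : 0 < Real.exp Λ := Real.exp_pos Λ
  have h6 := hw.pos (0 + 1)
  nlinarith

theorem wt_le_nat {Λ : ℝ} {w : ℤ → ℝ} (hw : IsWt Λ w) (k : ℤ) (n : ℕ) :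
    w (k + n) ≤ Real.exp (Λ * n) * w k ∧ w (k - n) ≤ Real.exp (Λ * n) * w k := by
  induction n with
  | zero => simp
  | succ n ih =>
    have e : Real.exp (Λ * (n + 1 : ℕ)) = Real.exp Λ * Real.exp (Λ * n) := by
      rw [← Real.exp_add]
      congr 1
      push_cast
      ring
    rw [e]
    constructor
    · have h1 := hw.up (k + n)
      have e2 : k + ((n + 1 : ℕ) : ℤ) = k + n + 1 := by push_cast; ring
      rw [e2, mul_assoc]
      exact h1.trans (mul_le_mul_of_nonneg_left ih.1 (Real.exp_pos _).le)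
    · have h1 := hw.down (k - (n + 1 : ℕ))
      have e2 : k - ((n + 1 : ℕ) : ℤ) + 1 = k - n := by push_cast; ring
      rw [e2] at h1
      rw [mul_assoc]
      exact h1.trans (mul_le_mul_of_nonneg_left ih.2 (Real.exp_pos _).le)

theorem wt_le_of_abs {Λ : ℝ} {w : ℤ → ℝ} (hw : IsWt Λ w) {k l : ℤ} {n : ℕ}
    (h1 : l ≤ k + n) (h2 : k ≤ l + n) : w l ≤ Real.exp (Λ * n) * w k := by
  rcases le_total k l with h | h
  · obtain ⟨m, hm⟩ := Int.eq_ofNat_of_zero_le (sub_nonneg.2 h)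
    have h3 := (wt_le_nat hw k m).1
    rw [show k + (m : ℤ) = l by linarith] at h3
    refine h3.trans (mul_le_mul_of_nonneg_right ?_ (hw.pos k).le)
    apply Real.exp_le_exp.2
    refine mul_le_mul_of_nonneg_left ?_ (wt_nonneg hw)
    have : (m : ℤ) ≤ n := by linarith
    exact_mod_cast this
  · obtain ⟨m, hm⟩ := Int.eq_ofNat_of_zero_le (sub_nonneg.2 h)
    have h3 := (wt_le_nat hw k m).2
    rw [show k - (m : ℤ) = l by linarith] at h3
    refine h3.trans (mul_le_mul_of_nonneg_right ?_ (hw.pos k).le)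
    apply Real.exp_le_exp.2
    refine mul_le_mul_of_nonneg_left ?_ (wt_nonneg hw)
    have : (m : ℤ) ≤ n := by linarith
    exact_mod_cast this

/-! ### potentials on the patches -/

section pot

variable {M : Type} [TopologicalSpace M] [ChartedSpace C2 M] [IsManifold 𝓘(ℂ, C2) ω M]
variable {D : XTData M} (𝒰 : PCov D)

/-- potentials of closed forms on the patches, with a uniform bound -/
theorem exists_pot : ∃ C, 0 ≤ C ∧ ∀ (i : Fin 𝒰.N) (a : M → Fin 2 → ℂ) (A : ℝ), 0 ≤ A →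
    (∀ y ∈ 𝒰.B i 1, At1 ∞ 0 a y) → (∀ y ∈ 𝒰.B i 1, dbar1 0 a y = 0) →
    (∀ y ∈ 𝒰.B i 1, n1 D.h 0 a y ≤ A) →
    ∃ φ : M → ℂ, (∀ y ∈ 𝒰.B i (1 / 2), At0 ∞ 0 φ y) ∧ (∀ y ∈ 𝒰.B i (1 / 2), dbar0 0 φ y = a y) ∧
      ∀ y ∈ 𝒰.B i (1 / 2), ‖φ y‖ ≤ C * A := by
  have key : ∀ i : Fin 𝒰.N, ∃ C, 0 ≤ C ∧ ∀ (a : M → Fin 2 → ℂ) (A : ℝ), 0 ≤ A →
      (∀ y ∈ 𝒰.B i 1, At1 ∞ 0 a y) → (∀ y ∈ 𝒰.B i 1, dbar1 0 a y = 0) →
      (∀ y ∈ 𝒰.B i 1, n1 D.h 0 a y ≤ A) →
      ∃ φ : M → ℂ, (∀ y ∈ 𝒰.B i (1 / 2), At0 ∞ 0 φ y) ∧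
        (∀ y ∈ 𝒰.B i (1 / 2), dbar0 0 φ y = a y) ∧ ∀ y ∈ 𝒰.B i (1 / 2), ‖φ y‖ ≤ C * A := by
    intro i
    have hR := 𝒰.R_pos i
    obtain ⟨C, hC0, hC⟩ := exists_potential (r := 1 / 2 * 𝒰.R i) (R := 1 * 𝒰.R i) (by linarith)
      (by linarith)
    obtain ⟨C1, hC1, hcmp⟩ := H378.n1_compare D.herm (𝒰.e_mem i) (𝒰.sub' i le_rfl)
      (isCompact_closedBall _ _) 0
    refine ⟨C * C1, by positivity, fun a A hA ha hcl hb => ?_⟩
    have hmem : ∀ z ∈ ball (𝒰.c i) (1 * 𝒰.R i), (𝒰.e i).symm z ∈ 𝒰.B i 1 := fun z hz =>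
      mem_image_of_mem _ hz
    obtain ⟨φ, hφ, hφd, hφb⟩ := hC (κ := 0) (e := 𝒰.e i) (c := 𝒰.c i) (α := a) (A := C1 * A)
      (𝒰.e_mem i) (𝒰.ball_sub i le_rfl) (by positivity) (fun z hz => ha _ (hmem z hz))
      (fun z hz => hcl _ (hmem z hz)) (fun z hz j => by
        refine (norm_le_pi_norm _ j).trans ?_
        refine ((hcmp z (ball_subset_closedBall hz) a).1).trans ?_
        exact mul_le_mul_of_nonneg_left (hb _ (hmem z hz)) hC1.le)
    have hloc : ∀ z ∈ (𝒰.e i).target, loc0 0 (𝒰.e i) (fun y => φ (𝒰.e i y)) z = φ z := by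
      intro z hz
      rw [LB.loc0_zero]
      simp only [Function.comp_apply]
      rw [(𝒰.e i).right_inv hz]
    refine ⟨fun y => φ (𝒰.e i y), fun y hy => ?_, fun y hy => ?_, fun y hy => ?_⟩
    · obtain ⟨hys, hyb⟩ := (𝒰.mem_B (by norm_num)).1 hy
      refine at0_of_chart (𝒰.e_mem i) hys ?_
      refine hφ.contDiffAt.congr_of_eventuallyEq ?_
      filter_upwards [(𝒰.e i).open_target.mem_nhds ((𝒰.e i).map_source hys)] with z hz
      exact hloc z hz
    · obtain ⟨hys, hyb⟩ := (𝒰.mem_B (by norm_num)).1 hy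
      have hev : loc0 0 (𝒰.e i) (fun y => φ (𝒰.e i y)) =ᶠ[𝓝 (𝒰.e i y)] φ := by
        filter_upwards [(𝒰.e i).open_target.mem_nhds ((𝒰.e i).map_source hys)] with z hz
        exact hloc z hz
      refine dbar0_of_chart (κ := 0) (𝒰.e_mem i) hys
        ((hφ.differentiable (by simp) _).congr_of_eventuallyEq hev) fun j => ?_
      rw [dzb_congr hev]
      exact hφd _ hyb j
    · obtain ⟨hys, hyb⟩ := (𝒰.mem_B (by norm_num)).1 hy
      refine (hφb _ hyb).trans (le_of_eq ?_)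
      ring
  choose C hC0 hC using key
  refine ⟨∑ i, C i, Finset.sum_nonneg fun i _ => hC0 i, fun i a A hA ha hcl hb => ?_⟩
  obtain ⟨φ, h1, h2, h3⟩ := hC i a A hA ha hcl hb
  refine ⟨φ, h1, h2, fun y hy => (h3 y hy).trans (mul_le_mul_of_nonneg_right ?_ hA)⟩
  exact Finset.single_le_sum (f := C) (fun j _ => hC0 j) (Finset.mem_univ i)

end pot

end Vale.Agent.P267.H667
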