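import Vale.Agent.P267.H667.T2sB

/-!
# P267 / XA-SMOOTH: the C^1 clause of T2s from T2 (helper667), part 3

The gauge transformation `v - dbar u`, `u = sum rho_p phi_p`.
-/

set_option linter.unusedSectionVars false
set_option linter.unusedVariables false

open Filter Topology Set Metric
open scoped ContDiff Manifold ComplexConjugate Matrix ComplexOrder

noncomputable section

namespace Vale.Agent.P267.H667

open FL XT H181

section norm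

variable {M : Type} [TopologicalSpace M] [ChartedSpace C2 M]
variable {h : M → Matrix (Fin 2) (Fin 2) ℂ}

theorem n1_congr_at {a b : M → Fin 2 → ℂ} {x : M} (hab : a x = b x) (κ : ℤ) :
    n1 h κ a x = n1 h κ b x := by
  simp only [n1, nsq1, hab]

theorem n1_zero_at {a : M → Fin 2 → ℂ} {x : M} (ha : a x = 0) (κ : ℤ) : n1 h κ a x = 0 := by
  rw [n1_congr_at (b := fun _ _ => 0) (by rw [ha]; rfl)]
  simp [n1, nsq1]

theorem n1_sum_le (hh : IsHerm h) {ι : Type*} (S : Finset ι) (t : ι → M → Fin 2 → ℂ) (x : M) :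
    n1 h 0 (fun y p => ∑ s ∈ S, t s y p) x ≤ ∑ s ∈ S, n1 h 0 (t s) x := by
  classical
  induction S using Finset.induction_on with
  | empty =>
    rw [Finset.sum_empty, n1_zero_at]
    funext p
    simp
  | insert s S hs ih =>
    rw [Finset.sum_insert hs]
    have h1 : n1 h 0 (fun y p => ∑ s ∈ insert s S, t s y p) x =
        n1 h 0 (fun y p => t s y p + (fun y p => ∑ s ∈ S, t s y p) y p) x := by
      apply n1_congr_at
      funext p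
      rw [Finset.sum_insert hs]
    rw [h1]
    exact (n1_add_le hh 0 _ _ x).trans (add_le_add le_rfl ih)

end norm

section gauge

variable {M : Type} [TopologicalSpace M] [T2Space M] [ChartedSpace C2 M] [IsManifold 𝓘(ℂ, C2) ω M]
variable {D : XTData M} (𝒰 : PCov D)

/-- complex valued partition functions -/
def rc (i : Fin 𝒰.N) (x : M) : ℂ := (𝒰.rho i x : ℂ)

theorem reg0_rc (i : Fin 𝒰.N) : Reg0 ∞ 0 (rc 𝒰 i) := 𝒰.reg0_rho i

theorem isClosed_Bc (i : Fin 𝒰.N) {t : ℝ} (ht : t ≤ 1) : IsClosed (𝒰.Bc i t) :=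
  (𝒰.isCompact_Bc i ht).isClosed

theorem rc_off {i : Fin 𝒰.N} {x : M} (hx : x ∉ 𝒰.Bc i (1 / 4)) : rc 𝒰 i =ᶠ[𝓝 x] fun _ => 0 := by
  filter_upwards [(isClosed_Bc 𝒰 i (by norm_num)).isOpen_compl.mem_nhds hx] with y hy
  rw [rc, 𝒰.rho_eq_zero hy]
  simp

theorem norm_rc_le (i : Fin 𝒰.N) (x : M) : ‖rc 𝒰 i x‖ ≤ 1 := by
  rw [rc, Complex.norm_real, Real.norm_of_nonneg (𝒰.rho_nonneg i x)]
  exact 𝒰.rho_le_one i x

theorem dbar0_rc_off {i : Fin 𝒰.N} {x : M} (hx : x ∉ 𝒰.Bc i (1 / 4)) :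
    dbar0 0 (rc 𝒰 i) x = 0 := by
  rw [dbar0_congr (rc_off 𝒰 hx)]
  exact dbar0_zero

theorem dbar0_rc_ev {i : Fin 𝒰.N} {x : M} (hx : x ∉ 𝒰.Bc i (1 / 4)) :
    dbar0 0 (rc 𝒰 i) =ᶠ[𝓝 x] fun _ _ => 0 := by
  filter_upwards [(isClosed_Bc 𝒰 i (by norm_num)).isOpen_compl.mem_nhds hx] with y hy
  exact dbar0_rc_off 𝒰 hy

theorem reg1_dbar_rc (i : Fin 𝒰.N) : Reg1 ∞ 0 (dbar0 0 (rc 𝒰 i)) :=
  (reg0_rc 𝒰 i).dbar infty_add_one_le

/-- bounds of the derivatives of the partition functions -/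
theorem exists_rc_bound : ∃ C, 0 ≤ C ∧ ∀ i x, n1 D.h 0 (dbar0 0 (rc 𝒰 i)) x ≤ C ∧
    ‖trh D.h (ddb (rc 𝒰 i)) x‖ ≤ C := by
  have key : ∀ i, ∃ C, 0 ≤ C ∧ ∀ x, n1 D.h 0 (dbar0 0 (rc 𝒰 i)) x ≤ C ∧
      ‖trh D.h (ddb (rc 𝒰 i)) x‖ ≤ C := by
    intro i
    have hK := 𝒰.isCompact_Bc i (t := 1 / 4) (by norm_num)
    have h1 : Continuous (n1 D.h 0 (dbar0 0 (rc 𝒰 i))) := continuous_n1 D.herm (reg1_dbar_rc 𝒰 i)
    have h2 : Continuous fun x => ‖trh D.h (ddb (rc 𝒰 i)) x‖ :=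
      (H661.reg_trh D.herm (H469.reg_del1 (reg1_dbar_rc 𝒰 i))).continuous.norm
    obtain ⟨C1, hC1⟩ := hK.bddAbove_image h1.continuousOn
    obtain ⟨C2, hC2⟩ := hK.bddAbove_image h2.continuousOn
    refine ⟨max 0 (max C1 C2), le_max_left _ _, fun x => ?_⟩
    by_cases hx : x ∈ 𝒰.Bc i (1 / 4)
    · exact ⟨(hC1 (mem_image_of_mem _ hx)).trans ((le_max_left _ _).trans (le_max_right _ _)),
        (hC2 (mem_image_of_mem _ hx)).trans ((le_max_right _ _).trans (le_max_right _ _))⟩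
    · constructor
      · rw [n1_zero_at (dbar0_rc_off 𝒰 hx)]
        exact le_max_left _ _
      · have h3 : ddb (rc 𝒰 i) x = 0 := by
          rw [ddb, del1_congr (dbar0_rc_ev 𝒰 hx)]
          exact del1_zero'
        rw [trh, h3]
        simp
  choose C hC0 hC using key
  refine ⟨∑ i, C i, Finset.sum_nonneg fun i _ => hC0 i, fun i x => ?_⟩
  have h1 := Finset.single_le_sum (f := C) (fun j _ => hC0 j) (Finset.mem_univ i)
  exact ⟨(hC i x).1.trans h1, (hC i x).2.trans h1⟩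

/-- potentials of `v` on the good patches -/
structure Pot (v : M → Fin 2 → ℂ) (good : Fin 𝒰.N → ℤ → Prop) (φ : Fin 𝒰.N → ℤ → M → ℂ)
    (W : ℤ → ℝ) : Prop where
  at0 : ∀ i k, good i k → ∀ y ∈ 𝒰.B i (1 / 2), At0 ∞ 0 (φ i k) y
  db : ∀ i k, good i k → ∀ y ∈ 𝒰.B i (1 / 2), dbar0 0 (φ i k) y = v (D.sh k y)
  bd : ∀ i k, good i k → ∀ y ∈ 𝒰.B i (1 / 2), ‖φ i k y‖ ≤ W k

variable {v : M → Fin 2 → ℂ} {good : Fin 𝒰.N → ℤ → Prop} {φ : Fin 𝒰.N → ℤ → M → ℂ} {W : ℤ → ℝ}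

open Classical in
/-- the gauge function on one patch, moved to the central one -/
def gg (good : Fin 𝒰.N → ℤ → Prop) (φ : Fin 𝒰.N → ℤ → M → ℂ) (i : Fin 𝒰.N) (k : ℤ) (y : M) : ℂ :=
  if good i k then rc 𝒰 i y * φ i k y else 0

theorem gg_off {i : Fin 𝒰.N} {k : ℤ} {y : M} (hy : y ∉ 𝒰.Bc i (1 / 4)) :
    gg 𝒰 good φ i k y = 0 := by
  have h := (rc_off 𝒰 hy).self_of_nhds
  rw [gg, h]
  simp

theorem gg_off_ev {i : Fin 𝒰.N} {k : ℤ} {y : M} (hy : y ∉ 𝒰.Bc i (1 / 4)) :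
    gg 𝒰 good φ i k =ᶠ[𝓝 y] fun _ => 0 := by
  filter_upwards [(isClosed_Bc 𝒰 i (by norm_num)).isOpen_compl.mem_nhds hy] with z hz
  exact gg_off 𝒰 hz

theorem Bc_half {i : Fin 𝒰.N} {y : M} (hy : y ∈ 𝒰.Bc i (1 / 4)) : y ∈ 𝒰.B i (1 / 2) :=
  𝒰.Bc_sub_B i (by norm_num) hy

variable {𝒰} in
theorem reg0_gg (hP : Pot 𝒰 v good φ W) (i : Fin 𝒰.N) (k : ℤ) : Reg0 ∞ 0 (gg 𝒰 good φ i k) := by
  refine reg0_iff_at.2 fun y => ?_
  by_cases hy : y ∈ 𝒰.Bc i (1 / 4)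
  · by_cases hg : good i k
    · have h1 : At0 ∞ 0 (fun y => rc 𝒰 i y * φ i k y) y :=
        ((reg0_rc 𝒰 i).at y).mul (hP.at0 i k hg y (Bc_half 𝒰 hy))
      refine h1.congr (Eventually.of_forall fun z => ?_)
      simp [gg, hg]
    · refine at0_zero.congr (Eventually.of_forall fun z => ?_)
      simp [gg, hg]
  · exact at0_zero.congr (gg_off_ev 𝒰 hy)

variable {𝒰} in
open Classical in
theorem dbar0_gg (hP : Pot 𝒰 v good φ W) (i : Fin 𝒰.N) (k : ℤ) (y : M) (p : Fin 2) :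
    dbar0 0 (gg 𝒰 good φ i k) y p =
      if good i k then φ i k y * dbar0 0 (rc 𝒰 i) y p + rc 𝒰 i y * v (D.sh k y) p else 0 := by
  by_cases hy : y ∈ 𝒰.Bc i (1 / 4)
  · by_cases hg : good i k
    · rw [if_pos hg]
      have h0 : gg 𝒰 good φ i k =ᶠ[𝓝 y] fun y => rc 𝒰 i y * φ i k y :=
        Eventually.of_forall fun z => by simp [gg, hg]
      rw [dbar0_congr h0]
      have hy2 := Bc_half 𝒰 hy
      rw [dbar0_mul (((reg0_rc 𝒰 i).at y).of_le (by simp)) ((hP.at0 i k hg y hy2).of_le (by simp))]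
      simp only [hP.db i k hg y hy2]
      ring
    · rw [if_neg hg]
      have h0 : gg 𝒰 good φ i k =ᶠ[𝓝 y] fun y => 0 :=
        Eventually.of_forall fun z => by simp [gg, hg]
      rw [dbar0_congr h0, dbar0_zero]
      rfl
  · rw [dbar0_congr (gg_off_ev 𝒰 hy), dbar0_zero, dbar0_rc_off 𝒰 hy]
    have := (rc_off 𝒰 hy).self_of_nhds
    rw [this]
    simp

/-- the gauge function -/
def uu (good : Fin 𝒰.N → ℤ → Prop) (φ : Fin 𝒰.N → ℤ → M → ℂ) (x : M) : ℂ :=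
  ∑ i, ∑ᶠ k : ℤ, gg 𝒰 good φ i k (D.sh (-k) x)

theorem uu_eq {x y : M} (hy : |D.f y - D.f x| ≤ 1) :
    uu 𝒰 good φ y = ∑ i, ∑ k ∈ ks D x, gg 𝒰 good φ i k (D.sh (-k) y) := by
  refine Finset.sum_congr rfl fun i _ => ?_
  refine finsum_eq_sum_of_support_subset _ fun k hk => ?_
  by_contra h
  refine hk (gg_off 𝒰 fun h2 => h ?_)
  exact Finset.mem_coe.2 (𝒰.mem_ks hy (by norm_num) h2)

theorem eventually_lt {x y : M} (hy : |D.f y - D.f x| < 1) :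
    ∀ᶠ z in 𝓝 y, |D.f z - D.f x| < 1 := by
  have h1 : Continuous fun z => |D.f z - D.f x| :=
    ((continuous_f D).sub continuous_const).abs
  exact h1.continuousAt.eventually (Iio_mem_nhds hy)

variable {𝒰} in
theorem reg0_uu (hP : Pot 𝒰 v good φ W) : Reg0 ∞ 0 (uu 𝒰 good φ) := by
  refine reg0_iff_at.2 fun x => ?_
  have h1 : At0 ∞ 0 (fun y => ∑ i, ∑ k ∈ ks D x, gg 𝒰 good φ i k (D.sh (-k) y)) x :=
    At0.sum fun i _ => At0.sum fun k _ =>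
      ((D.chartMap_sh (-k)).reg0_comp (reg0_gg hP i k)).at x
  refine h1.congr ?_
  filter_upwards [eventually_lt (D := D) (x := x) (y := x) (by simp)] with y hy
  rw [uu_eq 𝒰 hy.le]

variable {𝒰} in
theorem dbar0_uu (hP : Pot 𝒰 v good φ W) {x y : M} (hy : |D.f y - D.f x| < 1) (p : Fin 2) :
    dbar0 0 (uu 𝒰 good φ) y p =
      ∑ i, ∑ k ∈ ks D x, dbar0 0 (gg 𝒰 good φ i k) (D.sh (-k) y) p := by
  have h0 : uu 𝒰 good φ =ᶠ[𝓝 y] fun y => ∑ i, ∑ k ∈ ks D x, gg 𝒰 good φ i k (D.sh (-k) y) := by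
    filter_upwards [eventually_lt hy] with z hz
    rw [uu_eq 𝒰 hz.le]
  rw [dbar0_congr h0]
  have hat : ∀ i k, At0 1 0 (fun y => gg 𝒰 good φ i k (D.sh (-k) y)) y := fun i k =>
    (((D.chartMap_sh (-k)).reg0_comp (reg0_gg hP i k)).at y).of_le (by simp)
  have h1 := dbar0_sum (κ := 0) (S := Finset.univ) (x := y)
    (s := fun i => fun y => ∑ k ∈ ks D x, gg 𝒰 good φ i k (D.sh (-k) y))
    (fun i _ => At0.sum fun k _ => hat i k)
  rw [h1, Finset.sum_apply]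
  refine Finset.sum_congr rfl fun i _ => ?_
  have h2 := dbar0_sum (κ := 0) (S := ks D x) (x := y)
    (s := fun k => fun y => gg 𝒰 good φ i k (D.sh (-k) y)) (fun k _ => hat i k)
  rw [h2, Finset.sum_apply]
  refine Finset.sum_congr rfl fun k _ => ?_
  rw [(D.chartMap_sh (-k)).dbar0_comp]

variable {𝒰} in
theorem n1_dbar_gg_le (hP : Pot 𝒰 v good φ W) {C : ℝ} (hC0 : 0 ≤ C)
    (hC : ∀ i x, n1 D.h 0 (dbar0 0 (rc 𝒰 i)) x ≤ C) {i : Fin 𝒰.N} {k : ℤ} (hW : 0 ≤ W k) (y : M) :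
    n1 D.h 0 (dbar0 0 (gg 𝒰 good φ i k)) y ≤ W k * C + n1 D.h 0 v (D.sh k y) := by
  have hv0 : 0 ≤ n1 D.h 0 v (D.sh k y) := n1_nonneg D.herm 0 v _
  have hz : 0 ≤ W k * C + n1 D.h 0 v (D.sh k y) := by positivity
  by_cases hg : good i k
  · by_cases hy : y ∈ 𝒰.Bc i (1 / 4)
    · have h1 : n1 D.h 0 (dbar0 0 (gg 𝒰 good φ i k)) y =
          n1 D.h 0 (fun y p => (fun y => φ i k y • dbar0 0 (rc 𝒰 i) y) y p +
            (fun y => rc 𝒰 i y • v (D.sh k y)) y p) y := by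
        apply n1_congr_at
        funext p
        rw [dbar0_gg hP, if_pos hg]
        rfl
      rw [h1]
      refine (n1_add_le D.herm 0 _ _ y).trans ?_
      rw [n1_smul, n1_smul, D.n1_comp_sh]
      refine add_le_add ?_ ?_
      · exact mul_le_mul (hP.bd i k hg y (Bc_half 𝒰 hy)) (hC i y) (n1_nonneg D.herm _ _ _) hW
      · calc ‖rc 𝒰 i y‖ * n1 D.h 0 v (D.sh k y) ≤ 1 * n1 D.h 0 v (D.sh k y) :=
            mul_le_mul_of_nonneg_right (norm_rc_le 𝒰 i y) hv0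
          _ = _ := one_mul _
    · rw [n1_zero_at (by rw [dbar0_congr (gg_off_ev 𝒰 hy)]; exact dbar0_zero)]
      exact hz
  · rw [n1_zero_at]
    · exact hz
    · funext p
      rw [dbar0_gg hP, if_neg hg]
      rfl

theorem card_ks_le (x : M) : (ks D x).card ≤ 8 := by
  rw [ks, Int.card_Icc]
  have h1 : ⌈D.f x⌉ ≤ ⌊D.f x⌋ + 1 := Int.ceil_le_floor_add_one _
  omega

variable {𝒰} in
/-- sup bound of the gauge term -/
theorem n1_dbar_uu_le (hP : Pot 𝒰 v good φ W) {C : ℝ} (hC0 : 0 ≤ C)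
    (hC : ∀ i x, n1 D.h 0 (dbar0 0 (rc 𝒰 i)) x ≤ C) (hW : ∀ k, 0 ≤ W k) {x : M} {A : ℝ}
    (hA : ∀ k ∈ ks D x, W k ≤ A) (hA0 : 0 ≤ A) :
    n1 D.h 0 (dbar0 0 (uu 𝒰 good φ)) x ≤ 𝒰.N * (8 * (A * C + n1 D.h 0 v x)) := by
  have h1 : n1 D.h 0 (dbar0 0 (uu 𝒰 good φ)) x =
      n1 D.h 0 (fun y p => ∑ i, (fun y p => ∑ k ∈ ks D x,
        (fun y => dbar0 0 (gg 𝒰 good φ i k) (D.sh (-k) y)) y p) y p) x := by
    apply n1_congr_at
    funext p
    exact dbar0_uu hP (by simp) p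
  rw [h1]
  refine (n1_sum_le D.herm _ _ x).trans ?_
  have hv0 : 0 ≤ n1 D.h 0 v x := n1_nonneg D.herm 0 v _
  have h2 : ∀ i : Fin 𝒰.N, n1 D.h 0 (fun y p => ∑ k ∈ ks D x,
      (fun y => dbar0 0 (gg 𝒰 good φ i k) (D.sh (-k) y)) y p) x ≤ 8 * (A * C + n1 D.h 0 v x) := by
    intro i
    refine (n1_sum_le D.herm _ _ x).trans ?_
    have h3 : ∀ k ∈ ks D x, n1 D.h 0 (fun y => dbar0 0 (gg 𝒰 good φ i k) (D.sh (-k) y)) x ≤
        A * C + n1 D.h 0 v x := by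
      intro k hk
      rw [D.n1_comp_sh]
      refine (n1_dbar_gg_le hP hC0 hC (hW k) _).trans ?_
      rw [D.sh_sh_neg]
      exact add_le_add (mul_le_mul_of_nonneg_right (hA k hk) hC0) le_rfl
    refine (Finset.sum_le_card_nsmul _ _ _ h3).trans ?_
    rw [nsmul_eq_mul]
    refine mul_le_mul_of_nonneg_right ?_ (by positivity)
    exact_mod_cast card_ks_le x
  refine (Finset.sum_le_card_nsmul _ _ _ fun i _ => h2 i).trans ?_
  rw [nsmul_eq_mul, Finset.card_univ, Fintype.card_fin]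

end gauge

end Vale.Agent.P267.H667
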