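import Vale.Agent.P267.H667.T2sC

/-!
# P267 / XA-SMOOTH: the C^1 clause of T2s from T2 (helper667), part 4

The C^1 bound for the gauge transformed form where all patches are good.
-/

set_option linter.unusedSectionVars false
set_option linter.unusedVariables false

open Filter Topology Set Metric
open scoped ContDiff Manifold ComplexConjugate Matrix ComplexOrder

noncomputable section

namespace Vale.Agent.P267.H667

open FL XT H181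

section c1

variable {M : Type} [TopologicalSpace M] [T2Space M] [ChartedSpace C2 M] [IsManifold 𝓘(ℂ, C2) ω M]
variable {D : XTData M} (𝒰 : PCov D)

/-- Cauchy estimates for the differences of potentials, uniform over all pairs of patches -/
theorem exists_cauchy_pairs : ∃ C, 0 ≤ C ∧ ∀ (i₀ i : Fin 𝒰.N) (d : ℤ), ∀ (G : M → ℂ) (A : ℝ),
    0 ≤ A →
    (∀ y ∈ 𝒰.B i₀ (1 / 2), D.sh (-d) y ∈ 𝒰.B i (1 / 2) → At0 1 0 G y) →
    (∀ y ∈ 𝒰.B i₀ (1 / 2), D.sh (-d) y ∈ 𝒰.B i (1 / 2) → dbar0 0 G y = 0) →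
    (∀ y ∈ 𝒰.B i₀ (1 / 2), D.sh (-d) y ∈ 𝒰.B i (1 / 2) → ‖G y‖ ≤ A) →
    ∀ x ∈ 𝒰.Bc i₀ (1 / 4), D.sh (-d) x ∈ 𝒰.Bc i (1 / 4) →
      n1 D.h 0 (fun y p => conj (del0 G y p)) x ≤ C * A := by
  have key : ∀ (i₀ i : Fin 𝒰.N) (d : ℤ), ∃ C, 0 ≤ C ∧ ∀ (G : M → ℂ) (A : ℝ), 0 ≤ A →
      (∀ y ∈ 𝒰.B i₀ (1 / 2), D.sh (-d) y ∈ 𝒰.B i (1 / 2) → At0 1 0 G y) →
      (∀ y ∈ 𝒰.B i₀ (1 / 2), D.sh (-d) y ∈ 𝒰.B i (1 / 2) → dbar0 0 G y = 0) →
      (∀ y ∈ 𝒰.B i₀ (1 / 2), D.sh (-d) y ∈ 𝒰.B i (1 / 2) → ‖G y‖ ≤ A) →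
      ∀ x ∈ 𝒰.Bc i₀ (1 / 4), D.sh (-d) x ∈ 𝒰.Bc i (1 / 4) →
        n1 D.h 0 (fun y p => conj (del0 G y p)) x ≤ C * A := by
    intro i₀ i d
    have hW : IsOpen (𝒰.B i₀ (1 / 2) ∩ D.sh (-d) ⁻¹' 𝒰.B i (1 / 2)) :=
      (𝒰.isOpen_B i₀ (by norm_num)).inter
        ((𝒰.isOpen_B i (by norm_num)).preimage (D.continuous_sh _))
    have hK : IsCompact (𝒰.Bc i₀ (1 / 4) ∩ D.sh (-d) ⁻¹' 𝒰.Bc i (1 / 4)) :=
      (𝒰.isCompact_Bc i₀ (by norm_num)).inter_right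
        ((isClosed_Bc 𝒰 i (by norm_num)).preimage (D.continuous_sh _))
    have hKW : 𝒰.Bc i₀ (1 / 4) ∩ D.sh (-d) ⁻¹' 𝒰.Bc i (1 / 4) ⊆
        𝒰.B i₀ (1 / 2) ∩ D.sh (-d) ⁻¹' 𝒰.B i (1 / 2) := fun x hx =>
      ⟨Bc_half 𝒰 hx.1, Bc_half 𝒰 hx.2⟩
    obtain ⟨C, hC0, hC⟩ := cauchy_compact D.herm hW hK hKW
    refine ⟨C, hC0, fun G A hA h1 h2 h3 x hx hx2 => ?_⟩
    exact hC G A hA (fun y hy => h1 y hy.1 hy.2) (fun y hy => h2 y hy.1 hy.2)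
      (fun y hy => h3 y hy.1 hy.2) x ⟨hx, hx2⟩
  choose C hC0 hC using key
  refine ⟨∑ i₀, ∑ i, ∑ d ∈ Finset.Icc (-4 : ℤ) 4, C i₀ i d, Finset.sum_nonneg fun _ _ =>
    Finset.sum_nonneg fun _ _ => Finset.sum_nonneg fun _ _ => hC0 _ _ _, ?_⟩
  intro i₀ i d G A hA h1 h2 h3 x hx hx2
  refine (hC i₀ i d G A hA h1 h2 h3 x hx hx2).trans (mul_le_mul_of_nonneg_right ?_ hA)
  have hd : d ∈ Finset.Icc (-4 : ℤ) 4 := by
    have h4 := 𝒰.f_bd' (by norm_num) hx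
    have h5 := 𝒰.f_bd' (by norm_num) hx2
    rw [D.f_sh] at h5
    push_cast at h5
    rw [abs_le] at h4 h5
    rw [Finset.mem_Icc]
    constructor
    · have : (-4 : ℝ) ≤ d := by linarith [h4.1, h5.2]
      exact_mod_cast this
    · have : (d : ℝ) ≤ 4 := by linarith [h4.2, h5.1]
      exact_mod_cast this
  have h6 : C i₀ i d ≤ ∑ d ∈ Finset.Icc (-4 : ℤ) 4, C i₀ i d :=
    Finset.single_le_sum (f := fun d => C i₀ i d) (fun _ _ => hC0 _ _ _) hd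
  have h7 : ∑ d ∈ Finset.Icc (-4 : ℤ) 4, C i₀ i d ≤ ∑ i, ∑ d ∈ Finset.Icc (-4 : ℤ) 4, C i₀ i d :=
    Finset.single_le_sum (f := fun i => ∑ d ∈ Finset.Icc (-4 : ℤ) 4, C i₀ i d)
      (fun _ _ => Finset.sum_nonneg fun _ _ => hC0 _ _ _) (Finset.mem_univ i)
  have h8 : ∑ i, ∑ d ∈ Finset.Icc (-4 : ℤ) 4, C i₀ i d ≤
      ∑ i₀, ∑ i, ∑ d ∈ Finset.Icc (-4 : ℤ) 4, C i₀ i d :=
    Finset.single_le_sum (f := fun i₀ => ∑ i, ∑ d ∈ Finset.Icc (-4 : ℤ) 4, C i₀ i d)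
      (fun _ _ => Finset.sum_nonneg fun _ _ => Finset.sum_nonneg fun _ _ => hC0 _ _ _)
      (Finset.mem_univ i₀)
  exact h6.trans (h7.trans h8)

variable {v : M → Fin 2 → ℂ} {good : Fin 𝒰.N → ℤ → Prop} {φ : Fin 𝒰.N → ℤ → M → ℂ} {W : ℤ → ℝ}

/-- one term of the gauge transformed form -/
def term (φ : Fin 𝒰.N → ℤ → M → ℂ) (i₀ : Fin 𝒰.N) (k₀ : ℤ) (i : Fin 𝒰.N) (k : ℤ) (y : M)
    (p : Fin 2) : ℂ :=
  (φ i k (D.sh (-k) y) - φ i₀ k₀ (D.sh (-k₀) y)) * dbar0 0 (rc 𝒰 i) (D.sh (-k) y) p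

theorem term_off {i₀ : Fin 𝒰.N} {k₀ : ℤ} {i : Fin 𝒰.N} {k : ℤ} {x : M}
    (hx : D.sh (-k) x ∉ 𝒰.Bc i (1 / 4)) : term 𝒰 φ i₀ k₀ i k =ᶠ[𝓝 x] fun _ _ => 0 := by
  have h1 := (D.continuous_sh (-k)).continuousAt.eventually
    ((isClosed_Bc 𝒰 i (by norm_num)).isOpen_compl.mem_nhds hx)
  filter_upwards [h1] with y hy
  funext p
  rw [term, dbar0_rc_off 𝒰 hy]
  simp

variable {𝒰} in
theorem at1_term (hP : Pot 𝒰 v good φ W) {i₀ : Fin 𝒰.N} {k₀ : ℤ} (h₀ : good i₀ k₀)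
    {i : Fin 𝒰.N} {k : ℤ} (hg : good i k) {x : M} (hx₀ : D.sh (-k₀) x ∈ 𝒰.Bc i₀ (1 / 4)) :
    At1 ∞ 0 (term 𝒰 φ i₀ k₀ i k) x := by
  by_cases hx : D.sh (-k) x ∈ 𝒰.Bc i (1 / 4)
  · have h1 : At0 ∞ 0 (fun y => φ i k (D.sh (-k) y)) x :=
      at0_comp (D.chartMap_sh (-k)) (hP.at0 i k hg _ (Bc_half 𝒰 hx))
    have h2 : At0 ∞ 0 (fun y => φ i₀ k₀ (D.sh (-k₀) y)) x :=
      at0_comp (D.chartMap_sh (-k₀)) (hP.at0 i₀ k₀ h₀ _ (Bc_half 𝒰 hx₀))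
    have h3 : At1 ∞ 0 (fun y => dbar0 0 (rc 𝒰 i) (D.sh (-k) y)) x :=
      ((D.chartMap_sh (-k)).reg1_comp (reg1_dbar_rc 𝒰 i)).at x
    exact At1.smul (h1.sub h2) h3
  · exact at1_zero.congr (term_off 𝒰 hx)

variable {𝒰} in
/-- the C^1 bound of one term -/
theorem trh_term_le (hP : Pot 𝒰 v good φ W) {C C' : ℝ} (hC0 : 0 ≤ C)
    (hC : ∀ i x, n1 D.h 0 (dbar0 0 (rc 𝒰 i)) x ≤ C ∧ ‖trh D.h (ddb (rc 𝒰 i)) x‖ ≤ C)
    (hC'0 : 0 ≤ C')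
    (hC' : ∀ (i₀ i : Fin 𝒰.N) (d : ℤ), ∀ (G : M → ℂ) (A : ℝ),
      0 ≤ A →
      (∀ y ∈ 𝒰.B i₀ (1 / 2), D.sh (-d) y ∈ 𝒰.B i (1 / 2) → At0 1 0 G y) →
      (∀ y ∈ 𝒰.B i₀ (1 / 2), D.sh (-d) y ∈ 𝒰.B i (1 / 2) → dbar0 0 G y = 0) →
      (∀ y ∈ 𝒰.B i₀ (1 / 2), D.sh (-d) y ∈ 𝒰.B i (1 / 2) → ‖G y‖ ≤ A) →
      ∀ x ∈ 𝒰.Bc i₀ (1 / 4), D.sh (-d) x ∈ 𝒰.Bc i (1 / 4) →
        n1 D.h 0 (fun y p => conj (del0 G y p)) x ≤ C' * A)
    {i₀ : Fin 𝒰.N} {k₀ : ℤ} (h₀ : good i₀ k₀)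
    {i : Fin 𝒰.N} {k : ℤ} (hg : good i k) {x : M} (hx₀ : D.sh (-k₀) x ∈ 𝒰.Bc i₀ (1 / 4))
    {A : ℝ} (hA0 : 0 ≤ A) (hA : W k ≤ A) (hA' : W k₀ ≤ A) :
    ‖trh D.h (del1 (term 𝒰 φ i₀ k₀ i k)) x‖ ≤ C' * (2 * A) * C + 2 * A * C := by
  by_cases hx : D.sh (-k) x ∈ 𝒰.Bc i (1 / 4)
  · set G : M → ℂ := fun y => φ i k (D.sh (-k) y) - φ i₀ k₀ (D.sh (-k₀) y) with hG
    set ρ : M → ℂ := fun y => rc 𝒰 i (D.sh (-k) y) with hρ
    have hdρ : ∀ y, dbar0 0 ρ y = dbar0 0 (rc 𝒰 i) (D.sh (-k) y) := fun y =>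
      (D.chartMap_sh (-k)).dbar0_comp 0 (rc 𝒰 i) y
    have h1 : At0 ∞ 0 (fun y => φ i k (D.sh (-k) y)) x :=
      at0_comp (D.chartMap_sh (-k)) (hP.at0 i k hg _ (Bc_half 𝒰 hx))
    have h2 : At0 ∞ 0 (fun y => φ i₀ k₀ (D.sh (-k₀) y)) x :=
      at0_comp (D.chartMap_sh (-k₀)) (hP.at0 i₀ k₀ h₀ _ (Bc_half 𝒰 hx₀))
    have hGx : At0 ∞ 0 G x := h1.sub h2
    have hρr : Reg0 ∞ 0 ρ := (D.chartMap_sh (-k)).reg0_comp (reg0_rc 𝒰 i)
    have hb : At1 1 0 (dbar0 0 ρ) x := ((hρr.dbar infty_add_one_le).at x).of_le (by simp)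
    have hterm : term 𝒰 φ i₀ k₀ i k = fun y p => G y * dbar0 0 ρ y p := by
      funext y p
      rw [term, hdρ]
    have e1 : trh D.h (del1 (term 𝒰 φ i₀ k₀ i k)) x =
        trh D.h (fun y => Matrix.of fun p q =>
          conj ((fun y p => conj (del0 G y p)) y p) * dbar0 0 ρ y q) x +
          trh D.h (fun y => G y • ddb ρ y) x := by
      rw [← trh_add]
      apply trh_congr_at
      ext p q
      rw [hterm, del1_mul (hGx.of_le (by simp)) hb]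
      simp only [Matrix.add_apply, Matrix.of_apply, Matrix.smul_apply, smul_eq_mul, Complex.conj_conj]
      rfl
    rw [e1]
    have hGn : ‖G x‖ ≤ 2 * A := by
      have h4 := hP.bd i k hg _ (Bc_half 𝒰 hx)
      have h5 := hP.bd i₀ k₀ h₀ _ (Bc_half 𝒰 hx₀)
      calc ‖G x‖ ≤ ‖φ i k (D.sh (-k) x)‖ + ‖φ i₀ k₀ (D.sh (-k₀) x)‖ := norm_sub_le _ _
        _ ≤ 2 * A := by linarith
    have hnρ : n1 D.h 0 (dbar0 0 ρ) x ≤ C := by
      have e2 : n1 D.h 0 (dbar0 0 ρ) x =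
          n1 D.h 0 (fun y => dbar0 0 (rc 𝒰 i) (D.sh (-k) y)) x := n1_congr_at (hdρ x) 0
      rw [e2, D.n1_comp_sh]
      exact (hC i _).1
    have htρ : ‖trh D.h (ddb ρ) x‖ ≤ C := by
      have e2 : trh D.h (ddb ρ) x = trh D.h (ddb (rc 𝒰 i)) (D.sh (-k) x) := by
        rw [trh, trh, (D.chartMap_sh (-k)).ddb_comp, D.h_sh]
      rw [e2]
      exact (hC i _).2
    -- the Cauchy estimate, at the point `x' = sh (-k₀) x`
    have hcau : n1 D.h 0 (fun y p => conj (del0 G y p)) x ≤ C' * (2 * A) := by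
      set x' := D.sh (-k₀) x with hx'
      set G' : M → ℂ := fun y => G (D.sh k₀ y) with hG'
      have hkd : ∀ y, D.sh (-k) (D.sh k₀ y) = D.sh (-(k - k₀)) y := by
        intro y
        rw [← D.sh_add]
        congr 1
        ring
      have hG'e : ∀ y, G' y = φ i k (D.sh (-(k - k₀)) y) - φ i₀ k₀ y := by
        intro y
        simp only [hG', hG]
        rw [hkd, ← D.sh_add, neg_add_cancel, D.sh_zero]
      have hG'f : G' = fun y => φ i k (D.sh (-(k - k₀)) y) - φ i₀ k₀ y := funext hG'e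
      have hat1 : ∀ y, D.sh (-(k - k₀)) y ∈ 𝒰.B i (1 / 2) →
          At0 ∞ 0 (fun y => φ i k (D.sh (-(k - k₀)) y)) y := fun y hy =>
        at0_comp (D.chartMap_sh _) (hP.at0 i k hg _ hy)
      have hmain := hC' i₀ i (k - k₀) G' (2 * A) (by positivity)
        (fun y hy hy2 => by
          rw [hG'f]
          exact ((hat1 y hy2).sub (hP.at0 i₀ k₀ h₀ y hy)).of_le (by simp))
        (fun y hy hy2 => by
          rw [hG'f, dbar0_sub ((hat1 y hy2).of_le (by simp))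
            ((hP.at0 i₀ k₀ h₀ y hy).of_le (by simp)),
            (D.chartMap_sh (-(k - k₀))).dbar0_comp, hP.db i k hg _ hy2, hP.db i₀ k₀ h₀ y hy,
            ← D.sh_add]
          have : k + -(k - k₀) = k₀ := by ring
          rw [this]
          funext p
          simp)
        (fun y hy hy2 => by
          rw [hG'e]
          have h4 := hP.bd i k hg _ hy2
          have h5 := hP.bd i₀ k₀ h₀ _ hy
          refine (norm_sub_le _ _).trans ?_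
          linarith)
        x' hx₀ (by
          rw [hx', ← D.sh_add]
          have : -(k - k₀) + -k₀ = -k := by ring
          rw [this]
          exact hx)
      have e3 : n1 D.h 0 (fun y p => conj (del0 G y p)) x =
          n1 D.h 0 (fun y p => conj (del0 G' y p)) x' := by
        have e4 : (fun (y : M) (p : Fin 2) => conj (del0 G' y p)) =
            fun y => (fun y p => conj (del0 G y p)) (D.sh k₀ y) := by
          funext y p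
          rw [hG', (D.chartMap_sh k₀).del0_comp]
        rw [e4]
        have e5 := D.n1_comp_sh 0 k₀ (fun y p => conj (del0 G y p)) x'
        rw [e5, hx', D.sh_sh_neg]
      rw [e3]
      exact hmain
    refine (norm_add_le _ _).trans (add_le_add ?_ ?_)
    · refine (norm_trh_outer_le D.herm _ _ x).trans ?_
      exact mul_le_mul hcau hnρ (n1_nonneg D.herm _ _ _) (by positivity)
    · rw [trh_smul, norm_mul]
      exact mul_le_mul hGn htρ (norm_nonneg _) (by positivity)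
  · have h1 : trh D.h (del1 (term 𝒰 φ i₀ k₀ i k)) x = 0 := by
      rw [trh, del1_congr (term_off 𝒰 hx), del1_zero']
      simp
    rw [h1, norm_zero]
    positivity

variable {𝒰} in
/-- the gauge transformed form near a point all of whose patches are good -/
theorem gauge_eq (hP : Pot 𝒰 v good φ W) {x : M} (hgood : ∀ i, ∀ k ∈ ks D x, good i k)
    (i₀ : Fin 𝒰.N) (k₀ : ℤ) :
    (fun y p => v y p - dbar0 0 (uu 𝒰 good φ) y p) =ᶠ[𝓝 x]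
      fun y p => -∑ i, ∑ k ∈ ks D x, term 𝒰 φ i₀ k₀ i k y p := by
  filter_upwards [eventually_lt (D := D) (x := x) (y := x) (by simp)] with y hy
  funext p
  have h1 : ∑ i, ∑ k ∈ ks D x, rc 𝒰 i (D.sh (-k) y) = 1 := by
    have := 𝒰.sum_rho hy.le
    have h2 : ((∑ i, ∑ k ∈ ks D x, 𝒰.rho i (D.sh (-k) y) : ℝ) : ℂ) = 1 := by rw [this]; simp
    push_cast at h2
    exact h2
  have h2 : ∑ i, ∑ k ∈ ks D x, dbar0 0 (rc 𝒰 i) (D.sh (-k) y) p = 0 := by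
    have hev : (fun z => ∑ i, ∑ k ∈ ks D x, rc 𝒰 i (D.sh (-k) z)) =ᶠ[𝓝 y] fun _ => 1 := by
      filter_upwards [eventually_lt hy] with z hz
      have := 𝒰.sum_rho hz.le
      have h2 : ((∑ i, ∑ k ∈ ks D x, 𝒰.rho i (D.sh (-k) z) : ℝ) : ℂ) = 1 := by rw [this]; simp
      push_cast at h2
      exact h2
    have h3 : dbar0 0 (fun z => ∑ i, ∑ k ∈ ks D x, rc 𝒰 i (D.sh (-k) z)) y = 0 := by
      rw [dbar0_congr hev, FL.dbar0_const]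
    have hat : ∀ i k, At0 1 0 (fun y => rc 𝒰 i (D.sh (-k) y)) y := fun i k =>
      (((D.chartMap_sh (-k)).reg0_comp (reg0_rc 𝒰 i)).at y).of_le (by simp)
    have h4 := dbar0_sum (κ := 0) (S := Finset.univ) (x := y)
      (s := fun i => fun y => ∑ k ∈ ks D x, rc 𝒰 i (D.sh (-k) y))
      (fun i _ => At0.sum fun k _ => hat i k)
    rw [h4] at h3
    have h5 := congrFun h3 p
    rw [Finset.sum_apply] at h5
    refine Eq.trans ?_ h5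
    refine Finset.sum_congr rfl fun i _ => ?_
    have h6 := dbar0_sum (κ := 0) (S := ks D x) (x := y)
      (s := fun k => fun y => rc 𝒰 i (D.sh (-k) y)) (fun k _ => hat i k)
    rw [h6, Finset.sum_apply]
    refine Finset.sum_congr rfl fun k _ => ?_
    rw [(D.chartMap_sh (-k)).dbar0_comp]
  rw [dbar0_uu hP hy p]
  have h3 : ∀ i, ∀ k ∈ ks D x, dbar0 0 (gg 𝒰 good φ i k) (D.sh (-k) y) p =
      φ i k (D.sh (-k) y) * dbar0 0 (rc 𝒰 i) (D.sh (-k) y) p +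
        rc 𝒰 i (D.sh (-k) y) * v y p := by
    intro i k hk
    rw [dbar0_gg hP, if_pos (hgood i k hk), D.sh_sh_neg]
  have h4 : ∑ i, ∑ k ∈ ks D x, dbar0 0 (gg 𝒰 good φ i k) (D.sh (-k) y) p =
      (∑ i, ∑ k ∈ ks D x, φ i k (D.sh (-k) y) * dbar0 0 (rc 𝒰 i) (D.sh (-k) y) p) + v y p := by
    have h5 : v y p = ∑ i, ∑ k ∈ ks D x, rc 𝒰 i (D.sh (-k) y) * v y p := by
      simp_rw [← Finset.sum_mul]
      rw [h1, one_mul]
    conv_rhs => rw [h5]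
    rw [← Finset.sum_add_distrib]
    refine Finset.sum_congr rfl fun i _ => ?_
    rw [← Finset.sum_add_distrib]
    exact Finset.sum_congr rfl fun k hk => h3 i k hk
  have h5 : ∑ i, ∑ k ∈ ks D x, term 𝒰 φ i₀ k₀ i k y p =
      (∑ i, ∑ k ∈ ks D x, φ i k (D.sh (-k) y) * dbar0 0 (rc 𝒰 i) (D.sh (-k) y) p) -
        φ i₀ k₀ (D.sh (-k₀) y) * ∑ i, ∑ k ∈ ks D x, dbar0 0 (rc 𝒰 i) (D.sh (-k) y) p := by
    rw [Finset.mul_sum, ← Finset.sum_sub_distrib]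
    refine Finset.sum_congr rfl fun i _ => ?_
    rw [Finset.mul_sum, ← Finset.sum_sub_distrib]
    refine Finset.sum_congr rfl fun k _ => ?_
    rw [term]
    ring
  rw [h4, h5, h2]
  ring

end c1

end Vale.Agent.P267.H667
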