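import Vale.Agent.P267.H667.T2s
import Vale.Agent.P267.H877.XtFin

/-!
# P267 / XA-SMOOTH: `XT.T2sThm` (helper667)
-/

open scoped ContDiff Manifold

noncomputable section

namespace Vale.Agent.P267.H667

/-- **T2s** -/
theorem t2sThm : XT.T2sThm := by
  intro M _ _ _ _ _ D hT2
  exact t2sLeaf D hT2

end Vale.Agent.P267.H667
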